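import Vale.Agent.P122.H377.E5Cut
import Vale.Agent.P122.H518.E12
import Vale.Agent.P122.H563.Prof
import Vale.Agent.P122.H655.E3
import Vale.Agent.P127.U.ExcB

/-! # P122 / E5Pin : the excess of a regular system is pinned by its boxes (helper369)

`e c ≤ e' + 1 / K` for every upper bound `e'` of the densities of the level `c`. -/

set_option autoImplicit false

namespace Vale.Agent.P122.H369

open Filter Topology Finset Vale.Agent.P127 Vale.Agent.P127.Stk Vale.Agent.P127.U Vale.Agent.P127.U.Sys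
  Vale.Agent.P122.C2 Vale.Agent.P122.E

variable {K : ℕ} (F : Flg K)

/-- the tube and the ball determine the node up to `O(1)` values -/
theorem node_of_tube {c : ℕ} (hc : c ≤ K) :
    F.S.hc (F.N c) (Sys.pr (BX.lab (tubes (F.m c) (F.ln c))) (F.ball c)) = 0 := by
  classical
  set M : ℕ := ⌈3 * F.C⌉₊ with hM
  refine hc_zero_of_le (Real.log (((2 * M + 1) ^ 2 : ℕ) : ℝ)) (Eventually.of_forall fun i => ?_)
  refine Stk.hc_le_log (F.S.P i) _ _ _ fun ω hω => ?_
  refine ⟨(Fintype.piFinset fun k => Finset.Icc ((F.N c i ω).τ k - M) ((F.N c i ω).τ k + M)).image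
    (fun τ' => ⟨τ', (F.N c i ω).o, (F.N c i ω).T⟩), ?_, fun ω' hω' e => ?_⟩
  · refine Finset.card_image_le.trans ?_
    rw [Fintype.card_piFinset]
    have h : ∀ k, (Finset.Icc ((F.N c i ω).τ k - M) ((F.N c i ω).τ k + M)).card = 2 * M + 1 := by
      intro k
      rw [Int.card_Icc]
      omega
    simp only [h, Fin.prod_univ_two]
    exact le_of_eq (by ring)
  · have e1 : (tubes (F.m c) (F.ln c) i).lab ω' = (tubes (F.m c) (F.ln c) i).lab ω := congrArg Prod.fst e
    have e2 : F.ball c i ω' = F.ball c i ω := congrArg Prod.snd e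
    have e1' : U.lab 0 (c * F.n i) (c * F.n i) (F.ln c i ω') = U.lab 0 (c * F.n i) (c * F.n i) (F.ln c i ω) := e1
    rw [H655.lab_tbx, H655.lab_tbx, H655.ln_eq] at e1'
    simp only [Prod.mk.injEq] at e1'
    obtain ⟨-, -, -, ⟨p0, p1⟩, q0, q1⟩ := e1'
    rw [H655.tb_ndl_fst, H655.tb_ndl_fst] at p0 p1
    have hT : (F.N c i ω').T = (F.N c i ω).T := congrArg Prod.fst e2
    have ho : ∀ k, (F.N c i ω').o k / 2 ^ (c * F.n i) = (F.N c i ω).o k / 2 ^ (c * F.n i) := fun k =>
      congrFun (congrArg Prod.snd e2) k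
    have ho2 : (F.N c i ω').o = (F.N c i ω).o := by
      funext k
      have h1 := Int.emod_add_mul_ediv ((F.N c i ω').o k) (2 ^ (c * F.n i))
      have h2 := Int.emod_add_mul_ediv ((F.N c i ω).o k) (2 ^ (c * F.n i))
      rw [ho k] at h1
      fin_cases k
      · simp only [Fin.zero_eta] at h1 h2 ⊢
        rw [p0] at h1
        exact h1.symm.trans h2
      · simp only [Fin.mk_one] at h1 h2 ⊢
        rw [p1] at h1
        exact h1.symm.trans h2
    have hs : ∀ k, |F.s i c (F.N c i ω').τ k - F.s i c (F.N c i ω).τ k| ≤ 1 / 2 ^ (c * F.n i) := by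
      have hp : (0 : ℝ) < 2 ^ (c * F.n i) := by positivity
      have key : ∀ x y : ℝ, ⌊2 ^ (c * F.n i) * x⌋ = ⌊2 ^ (c * F.n i) * y⌋ → |x - y| ≤ 1 / 2 ^ (c * F.n i) := by
        intro x y h
        have h1 := Int.abs_sub_lt_one_of_floor_eq_floor h
        rw [← mul_sub, abs_mul, abs_of_pos hp] at h1
        rw [le_div_iff₀ hp, mul_comm]
        exact h1.le
      intro k
      fin_cases k
      · exact key _ _ q0
      · exact key _ _ q1
    have hcol := (F.slp i).colip c (F.N c i ω').τ (F.N c i ω).τ hc (H655.cap_N F i hω' c hc) (H655.cap_N F i hω c hc)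
    have hC0 : 0 ≤ F.C := by
      have h := (F.slp i).colip c (F.N c i ω).τ (F.N c i ω).τ hc (H655.cap_N F i hω c hc) (H655.cap_N F i hω c hc)
      simp only [sub_self, abs_zero, add_zero, mul_zero, zero_add, mul_one] at h
      exact h
    have hp : (0 : ℝ) < 2 ^ (c * F.n i) := by positivity
    have hsum : (2 : ℝ) ^ (c * F.n i) * (|F.s i c (F.N c i ω').τ 0 - F.s i c (F.N c i ω).τ 0| +
        |F.s i c (F.N c i ω').τ 1 - F.s i c (F.N c i ω).τ 1|) ≤ 2 := by
      calc _ ≤ (2 : ℝ) ^ (c * F.n i) * (1 / 2 ^ (c * F.n i) + 1 / 2 ^ (c * F.n i)) :=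
            mul_le_mul_of_nonneg_left (add_le_add (hs 0) (hs 1)) hp.le
        _ = 2 := by field_simp; norm_num
    have hle : |((F.N c i ω').τ 0 : ℝ) - (F.N c i ω).τ 0| + |((F.N c i ω').τ 1 : ℝ) - (F.N c i ω).τ 1| ≤ M := by
      have h1 : F.C * ((2 : ℝ) ^ (c * F.n i) * (|F.s i c (F.N c i ω').τ 0 - F.s i c (F.N c i ω).τ 0| +
        |F.s i c (F.N c i ω').τ 1 - F.s i c (F.N c i ω).τ 1|) + 1) ≤ F.C * 3 :=
        mul_le_mul_of_nonneg_left (by linarith) hC0
      have h2 : 3 * F.C ≤ M := Nat.le_ceil _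
      linarith
    have hk : ∀ k, |(F.N c i ω').τ k - (F.N c i ω).τ k| ≤ (M : ℤ) := by
      intro k
      have h0 := abs_nonneg (((F.N c i ω').τ 0 : ℝ) - (F.N c i ω).τ 0)
      have h1 := abs_nonneg (((F.N c i ω').τ 1 : ℝ) - (F.N c i ω).τ 1)
      have h2 : |((F.N c i ω').τ k : ℝ) - (F.N c i ω).τ k| ≤ M := by
        fin_cases k
        · simp only [Fin.zero_eta]; linarith
        · simp only [Fin.mk_one]; linarith
      exact_mod_cast h2
    refine Finset.mem_image.2 ⟨(F.N c i ω').τ, ?_, ?_⟩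
    · rw [Fintype.mem_piFinset]
      intro k
      have := abs_le.1 (hk k)
      rw [Finset.mem_Icc]
      constructor <;> linarith [this.1, this.2]
    · rw [← ho2, ← hT]

variable {S : Sys}

theorem av_sz_shape {W : S.BX} {k j : ℕ → ℕ} (h : S.Ae fun i ω => (W i).k ω = k i ∧ (W i).j ω = j i)
    (hk : UB fun i => (k i : ℝ) / S.L i) (hj : UB fun i => (j i : ℝ) / S.L i) :
    S.av (BX.sz W) = S.nu k + S.nu j := by
  unfold Sys.av Sys.nu
  rw [← ulim_add hk hj]
  refine ulim_congr ?_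
  filter_upwards [h] with i hi
  have e : (S.P i).ex (BX.sz W i) = (S.P i).ex fun _ => (k i : ℝ) + j i := by
    refine (S.P i).ex_congr fun ω hω => ?_
    show ((W i).k ω : ℝ) + (W i).j ω = _
    rw [(hi ω hω).1, (hi ω hω).2]
  rw [e, (S.P i).ex_const, add_div]

/-- an upper bound of the densities is nonnegative -/
theorem exU_nonneg {c : ℕ} {e' : ℝ} (h : ExU F c e') : 0 ≤ e' := by
  by_contra hcon
  push Not at hcon
  obtain ⟨i, hi, hL⟩ := ((h (-e' / 2) (by linarith)).and F.S.L_pos).exists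
  obtain ⟨ω, hω⟩ := H563.exists_supp (F.S.P i)
  have hp : (0 : ℝ) < 2 ^ (c * F.n i) := by positivity
  have h1 := hi 0 ((1 / 2 : ℝ) ^ (c * F.n i)) ((1 / 2 : ℝ) ^ (c * F.n i))
    (fun j => ((F.N c i ω).o j : ℝ) / 2 ^ (c * F.n i)) (F.s i c (F.N c i ω).τ) (F.N c i ω).T {F.N c i ω}
    le_rfl le_rfl (pow_le_one₀ (by norm_num) (by norm_num)) (fun S hS => by
      rw [Finset.mem_singleton] at hS
      subst hS
      refine ⟨⟨ω, hω, rfl⟩, rfl, ?_, ?_, ?_, ?_⟩
      · simp only [sub_self, fw]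
        simp
      · simp only [sub_self, C2.fn]
        simp
      · simp only [sub_self, fw]
        simp
      · simp only [sub_self, C2.fn]
        simp)
  have e1 : (1 / 2 : ℝ) ^ (c * F.n i) * (1 / 2) ^ (c * F.n i) * 2 ^ (2 * c * F.n i) = 1 := by
    have : 2 * c * F.n i = c * F.n i + c * F.n i := by ring
    rw [this, pow_add, one_div, inv_pow]
    field_simp
  rw [Finset.card_singleton, e1, mul_one] at h1
  have h2 : (2 : ℝ) ^ ((e' + -e' / 2) * F.S.L i) < 1 := by
    apply Real.rpow_lt_one_of_one_lt_of_neg (by norm_num)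
    have : (0 : ℝ) < F.S.L i := by exact_mod_cast hL
    nlinarith
  push_cast at h1
  linarith

/-- **E5Pin** -/
theorem e5Pin : E5Pin := by
  intro K F J θ H e W kk jj hK hA c e' hc hE
  have hKp : (0 : ℝ) < K := by exact_mod_cast hK
  have he' := exU_nonneg F hE
  have h3 := H655.e3 F c e' hK hc he' hE
  have hBd : F.S.Bd (F.m c) := by
    refine ⟨1, Eventually.of_forall fun i => ?_⟩
    have h1 : F.m c i ≤ F.S.L i := by
      rw [F.L_eq i]
      exact Nat.mul_le_mul_right _ hc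
    rw [one_mul]
    exact_mod_cast h1
  have hLn : LnA (F.ln c) := Eventually.of_forall fun i ω hω => H655.lnOk_ln F i hω c hc
  have hB : BxA (tubes (F.m c) (F.ln c)) := by
    obtain ⟨C, hC⟩ := hBd
    refine ⟨hLn.mono fun i g ω hω => ⟨g ω hω, ?_, le_rfl⟩, C, ?_⟩
    · show |(0 : ℝ)| ≤ 4
      rw [abs_zero]
      norm_num
    · filter_upwards [hC] with i hi ω _
      exact hi
  have hS : SubA (tubes (F.m c) (F.ln c)) (W c) := by
    refine ⟨1, ?_⟩
    filter_upwards [hA.Wok c hc] with i hi ω hω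
    obtain ⟨g1, g2, g3, g4, g5, g6⟩ := hi ω hω
    refine ⟨g1, g2, by rw [g3, g4]; exact g5, ?_, ?_, ?_⟩
    · rw [g3]; exact g5.trans g6
    · rw [g4]; exact g6
    · rw [g4, one_mul]
      have h1 : |Real.sin ((tubes (F.m c) (F.ln c) i).θ ω - (W c i).θ ω)| ≤ 1 := Real.abs_sin_le_one _
      calc _ ≤ 1 * (1 / 2 : ℝ) ^ (c * F.n i) := mul_le_mul_of_nonneg_right h1 (by positivity)
        _ ≤ (1 / 2 : ℝ) ^ jj c i := by
          rw [one_mul]
          exact pow_le_pow_of_le_one (by norm_num) (by norm_num) g6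
  have hW : BxA (W c) := bxA_of_sub hB hS
  have hval : F.S.val (tubes (F.m c) (F.ln c)) (W c) (F.ball c) ≤ F.exc c :=
    pExcLe F.S F.S (Ext.refl F.S) (ℤ × Z2) (F.ball c) (tubes (F.m c) (F.ln c)) (W c) hB hW hS
  have hkj : ∀ᶠ i in (uf : Filter ℕ), kk c i ≤ jj c i ∧ jj c i ≤ c * F.n i := by
    filter_upwards [hA.Wok c hc] with i hi
    obtain ⟨ω, hω⟩ := H563.exists_supp (F.S.P i)
    obtain ⟨-, -, -, -, g5, g6⟩ := hi ω hω
    exact ⟨g5, g6⟩
  have hbd : ∀ k : ℕ → ℕ, (∀ᶠ i in (uf : Filter ℕ), k i ≤ c * F.n i) → UB fun i => (k i : ℝ) / F.S.L i := by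
    intro k hk
    refine UB.of_le (C := 1) (Eventually.of_forall fun i => by positivity) ?_
    filter_upwards [hk, F.S.L_pos] with i h1 h2
    have h2' : (0 : ℝ) < F.S.L i := by exact_mod_cast h2
    rw [div_le_one h2']
    have h4 : k i ≤ F.S.L i := by
      rw [F.L_eq i]
      exact h1.trans (Nat.mul_le_mul_right _ hc)
    exact_mod_cast h4
  have hubk := hbd (kk c) (hkj.mono fun i h => h.1.trans h.2)
  have hubj := hbd (jj c) (hkj.mono fun i h => h.2)
  have hubm := hbd (F.m c) (Eventually.of_forall fun i => le_rfl)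
  have hav : F.S.av (fun i ω => BX.sz (tubes (F.m c) (F.ln c)) i ω - BX.sz (W c) i ω) =
      2 * c / K - F.S.nu (kk c) - F.S.nu (jj c) := by
    rw [av_sub (ol_sz hB) (ol_sz hW), av_sz_shape (k := F.m c) (j := F.m c)
      (Eventually.of_forall fun i ω _ => ⟨rfl, rfl⟩) hubm hubm,
      av_sz_shape (k := kk c) (j := jj c) ?_ hubk hubj, H563.nu_m F hK c]
    · ring
    · filter_upwards [hA.Wok c hc] with i hi ω hω
      exact ⟨(hi ω hω).2.2.1, (hi ω hω).2.2.2.1⟩
  unfold Sys.val at hval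
  rw [hav] at hval
  -- lower bound of the entropy of the node given the box
  have tN : Tame (F.N c) := H518.cnt_tame (hA.N1 c hc)
  have tY : Tame (Sys.pr (BX.lab (W c)) (F.ball c)) := H518.cnt_tame (hA.W1 c hc)
  have tB : Tame (BX.lab (tubes (F.m c) (F.ln c))) := hB.tame
  have g1 : F.S.hc (F.N c) (one (S := F.S)) = H c := (H518.e1 F J θ H e W kk jj hK hA).1 c hc
  have g2 := H518.cnt_hc_le (hA.W1 c hc)
  have g3 := hc_le_add tN tY (one (S := F.S))
  have g4 : F.S.hc (F.N c) (Sys.pr (Sys.pr (BX.lab (W c)) (F.ball c)) (one (S := F.S))) ≤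
      F.S.hc (F.N c) (Sys.pr (BX.lab (W c)) (F.ball c)) := hc_mono_right tN (H518.ffst _ _)
  have g5 := hc_le_add tN tB (Sys.pr (BX.lab (W c)) (F.ball c))
  have g6 : F.S.hc (F.N c) (Sys.pr (BX.lab (tubes (F.m c) (F.ln c))) (Sys.pr (BX.lab (W c)) (F.ball c))) ≤
      F.S.hc (F.N c) (Sys.pr (BX.lab (tubes (F.m c) (F.ln c))) (F.ball c)) :=
    hc_mono_right tN (H518.fpr (H518.ffst _ _) (H518.ftr (H518.fsnd _ _) (H518.fsnd _ _)))
  rw [node_of_tube F hc] at g6
  linarith

end Vale.Agent.P122.H369
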