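import Vale.Agent.P122.H563.Prof
import Vale.Agent.P122.H518.E12

/-! # P122 / E5 (2), (3) : initial and trivial step from the Lipschitz bound of the excess (helper369)

* `J_le` : `J c ≤ 2 / K`.
* `H_le` : `H j ≤ H i + 2 (j - i) / K`.
* `E5_of : LipE C → E5 (C + 6)`. -/

set_option autoImplicit false

namespace Vale.Agent.P122.H369

open Filter Topology Finset Vale.Agent.P127 Vale.Agent.P127.Stk Vale.Agent.P127.U Vale.Agent.P127.U.Sys
  Vale.Agent.P122.C2 Vale.Agent.P122.E

variable {K : ℕ}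

/-- E5 (1) alone: Lipschitz bound of the excess -/
def LipE (C : ℝ) : Prop := AllA fun {K} _ _ _ _ e _ _ _ =>
  ∀ i j, i ≤ K → j ≤ K → |e i - e j| ≤ C * |(i:ℝ) - j| / K + C / K

section

variable {F : Flg K} {J θ H e : ℕ → ℝ} {W : ℕ → F.S.BX} {kk jj : ℕ → ℕ → ℕ}

/-- the number of children is at most `2 / K` -/
theorem J_le (hK : 1 ≤ K) (hA : RegA F J θ H e W kk jj) {c : ℕ} (hc : c < K) : J c ≤ 2 / K := by
  have g1 := (H518.e1 F J θ H e W kk jj hK hA).2.1 c (c + 1) (Nat.le_succ c) hc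
  have g2 := H563.hc_kids F hK hc
  have g3 := H563.nM_sub J (Nat.le_succ c)
  rw [Nat.succ_eq_add_one, Nat.Ico_succ_singleton, Finset.sum_singleton] at g3
  linarith

/-- one step: `H (c + 1) ≤ H c + 2 / K` -/
theorem H_succ (hK : 1 ≤ K) (hA : RegA F J θ H e W kk jj) {c : ℕ} (hc : c < K) : H (c + 1) ≤ H c + 2 / K := by
  have e1 := (H518.e1 F J θ H e W kk jj hK hA).1
  have t1 := H518.cnt_tame (hA.N1 c hc.le)
  have t2 := H518.cnt_tame (hA.N1 (c + 1) hc)
  have tY : Sys.Tame (F.Y (c + 1)) := t2.mono (H518.F_YN F (c + 1))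
  have f1 : Sys.Fn (F.N (c + 1)) (Sys.pr (F.N c) (F.Y (c + 1))) :=
    H518.ftr (H518.F_NY F hc) (H518.fpr (H518.ftr (H518.F_gN F c) (H518.ffst _ _)) (H518.fsnd _ _))
  have g1 : F.S.hc (F.N (c + 1)) (one (S := F.S)) ≤ F.S.hc (Sys.pr (F.N c) (F.Y (c + 1))) (one (S := F.S)) :=
    hc_mono_left (t1.pr tY) t2 (H518.ftr f1 (H518.ffst _ _))
  have g2 := hc_pair t1 tY (one (S := F.S))
  have g3 : F.S.hc (F.Y (c + 1)) (Sys.pr (F.N c) (one (S := F.S))) ≤ F.S.hc (F.Y (c + 1)) (F.N c) :=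
    hc_mono_right tY (H518.ffst _ _)
  have g4 := H563.hc_kids F hK hc
  rw [e1 c hc.le] at g2
  rw [e1 (c + 1) hc] at g1
  linarith

/-- `H j ≤ H i + 2 (j - i) / K` -/
theorem H_le (hK : 1 ≤ K) (hA : RegA F J θ H e W kk jj) {i j : ℕ} (hij : i ≤ j) (hj : j ≤ K) :
    H j ≤ H i + 2 * ((j : ℝ) - i) / K := by
  induction j, hij using Nat.le_induction with
  | base => simp
  | succ j hij ih =>
    have g1 := ih (by omega)
    have g2 := H_succ hK hA (c := j) (by omega)
    have g3 : 2 * (((j + 1 : ℕ) : ℝ) - i) / K = 2 * ((j : ℝ) - i) / K + 2 / K := by push_cast; ring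
    rw [g3]
    linarith

end

/-- **E5 from the Lipschitz bound of the excess** -/
theorem E5_of {C : ℝ} (h : LipE C) : E5 (C + 6) := by
  intro K F J θ H e W kk jj hK hA
  have hKp : (0 : ℝ) < K := by exact_mod_cast hK
  have hl := h F J θ H e W kk jj hK hA
  have hm := H518.e2 F J θ H e W kk jj hK hA
  have h0 : nE K J θ H 0 = 0 := by
    unfold nE nM
    simp
  have hC : 0 ≤ C := by
    have := hl 0 0 (Nat.zero_le _) (Nat.zero_le _)
    simp only [sub_self, abs_zero, mul_zero, zero_div, zero_add] at this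
    by_contra hcon
    push Not at hcon
    have := div_neg_of_neg_of_pos hcon hKp
    linarith
  have key : ∀ i j, i ≤ j → j ≤ K →
      nV K H e j ≤ nV K H e i + 3 * (nE K J θ H j - nE K J θ H i) + (C + 6) * ((j:ℝ) - i) / K + (C + 6) / K := by
    intro i j hij hj
    have g1 := hl j i hj (hij.trans hj)
    have g2 := hm i j hij hj
    have g3 := H_le hK hA hij hj
    have hij' : (i : ℝ) ≤ j := by exact_mod_cast hij
    rw [abs_of_nonneg (sub_nonneg.2 hij')] at g1
    have g4 := (abs_le.1 g1).1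
    unfold nV
    have e1 : (C + 6) * ((j:ℝ) - i) / K = C * ((j:ℝ) - i) / K + 2 * ((j:ℝ) - i) / K + (4 * j / K - 4 * i / K) := by ring
    have e2 : (C + 6) / K = C / K + 6 / K := by ring
    have e3 : 0 ≤ 6 / (K : ℝ) := by positivity
    rw [e1, e2]
    linarith
  refine ⟨fun i j hi hj => (hl i j hi hj).trans ?_, fun i hi => ?_, fun i j hij _ hj => key i j hij hj⟩
  · have e1 : C * |(i:ℝ) - j| / K ≤ (C + 6) * |(i:ℝ) - j| / K := by
      apply div_le_div_of_nonneg_right _ hKp.le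
      exact mul_le_mul_of_nonneg_right (by linarith) (abs_nonneg _)
    have e2 : C / K ≤ (C + 6) / K := div_le_div_of_nonneg_right (by linarith) hKp.le
    linarith
  · have := key 0 i (Nat.zero_le _) hi
    rw [h0] at this
    simpa using this

end Vale.Agent.P122.H369
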