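import Vale.Agent.P122.H369.E5b
import Vale.Agent.P122.H377.E5Cut

/-! # P122 / E5 from the cut of helper377 (helper369) -/

set_option autoImplicit false

namespace Vale.Agent.P122.H369

open Vale.Agent.P122.E

/-- E5 from part (1) -/
theorem E5_of_lip {C : ℝ} (h : E5Lip C) : E5 (C + 6) := E5_of (C := C) @h

/-- E5 from the three pieces of the cut -/
theorem E5_of_cut (hU : E5Up) (hD : E5Dn) (hP : E5Pin) : E5 26 := by
  have h : E5 (20 + 6) := @E5_of_lip 20 (e5Lip_of @hU @hD @hP)
  have e : (20 : ℝ) + 6 = 26 := by norm_num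
  rwa [e] at h

end Vale.Agent.P122.H369
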