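import Vale.Agent.P122.H369.E5c
import Vale.Agent.P122.H369.E5Pin

/-! # P122 / E5 from (up) and (down) (helper369) -/

set_option autoImplicit false

namespace Vale.Agent.P122.H369

open Vale.Agent.P122.E

/-- E5 from the two density transfers -/
theorem E5_of_updn (hU : E5Up) (hD : E5Dn) : E5 26 := E5_of_cut @hU @hD @e5Pin

end Vale.Agent.P122.H369
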